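import Mathlib

/-! Shannon entropy on finite weighted probability spaces. -/

set_option autoImplicit false

namespace Crest.Agent.Lib.FinEnt

open Finset

variable {Ω : Type*} [Fintype Ω] {α β γ δ : Type*}

/-- probability weights -/
structure IsP (w : Ω → ℝ) : Prop where
  nn : ∀ ω, 0 ≤ w ω
  one : ∑ ω, w ω = 1

open Classical in
/-- probability that `X = v` -/
noncomputable def pr (w : Ω → ℝ) (X : Ω → α) (v : α) : ℝ := ∑ ω, if X ω = v then w ω else 0

/-- Shannon entropy -/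
noncomputable def H (w : Ω → ℝ) (X : Ω → α) : ℝ := ∑ ω, w ω * (-Real.log (pr w X (X ω)))

/-- conditional entropy -/
noncomputable def Hc (w : Ω → ℝ) (X : Ω → α) (Y : Ω → β) : ℝ :=
  H w (fun ω => (X ω, Y ω)) - H w Y

/-- `X` determines `Y` -/
def Det (X : Ω → α) (Y : Ω → β) : Prop := ∀ ω ω', X ω = X ω' → Y ω = Y ω'

variable {w : Ω → ℝ}

lemma pr_nonneg (hw : IsP w) (X : Ω → α) (v : α) : 0 ≤ pr w X v := by
  unfold pr
  exact sum_nonneg fun ω _ => by split_ifs; exacts [hw.nn ω, le_rfl]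

lemma le_pr (hw : IsP w) (X : Ω → α) (ω : Ω) : w ω ≤ pr w X (X ω) := by
  unfold pr
  classical
  have := single_le_sum (f := fun ω' => if X ω' = X ω then w ω' else 0)
    (fun ω' _ => by split_ifs; exacts [hw.nn ω', le_rfl]) (mem_univ ω)
  simpa using this

lemma pr_le_one (hw : IsP w) (X : Ω → α) (v : α) : pr w X v ≤ 1 := by
  rw [← hw.one]; unfold pr
  exact sum_le_sum fun ω _ => by split_ifs; exacts [le_rfl, hw.nn ω]

lemma pr_mono (hw : IsP w) {X : Ω → α} {Y : Ω → β} (h : Det X Y) (ω : Ω) :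
    pr w X (X ω) ≤ pr w Y (Y ω) := by
  unfold pr
  refine sum_le_sum fun ω' _ => ?_
  by_cases h1 : X ω' = X ω
  · rw [if_pos h1, if_pos (h _ _ h1)]
  · rw [if_neg h1]; split_ifs; exacts [hw.nn _, le_rfl]

lemma H_nonneg (hw : IsP w) (X : Ω → α) : 0 ≤ H w X :=
  sum_nonneg fun ω _ => mul_nonneg (hw.nn ω)
    (neg_nonneg.2 (Real.log_nonpos (pr_nonneg hw _ _) (pr_le_one hw _ _)))

lemma H_mono (hw : IsP w) {X : Ω → α} {Y : Ω → β} (h : Det X Y) : H w Y ≤ H w X := by
  refine sum_le_sum fun ω _ => ?_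
  rcases (hw.nn ω).eq_or_lt with h0 | h0
  · rw [← h0]; simp
  · exact mul_le_mul_of_nonneg_left (neg_le_neg
      (Real.log_le_log (h0.trans_le (le_pr hw X ω)) (pr_mono hw h ω))) h0.le

lemma H_congr (hw : IsP w) {X : Ω → α} {Y : Ω → β} (h : Det X Y) (h' : Det Y X) :
    H w X = H w Y := le_antisymm (H_mono hw h') (H_mono hw h)

lemma sum_fiber [DecidableEq α] (w : Ω → ℝ) (X : Ω → α) (s : Finset α) (hs : ∀ ω, X ω ∈ s)
    (f : α → ℝ) : ∑ ω, w ω * f (X ω) = ∑ v ∈ s, pr w X v * f v := by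
  unfold pr
  simp_rw [sum_mul]
  rw [sum_comm]
  refine sum_congr rfl fun ω _ => ?_
  rw [sum_eq_single (X ω)]
  · simp
  · intro b _ hb; rw [if_neg (Ne.symm hb)]; simp
  · intro h; exact absurd (hs ω) h

lemma sum_pr_le (hw : IsP w) (X : Ω → α) (s : Finset α) : ∑ v ∈ s, pr w X v ≤ 1 := by
  classical
  rw [← hw.one]; unfold pr
  rw [sum_comm]
  refine sum_le_sum fun ω _ => ?_
  rw [sum_ite_eq]; split_ifs; exacts [le_rfl, hw.nn ω]

/-- Gibbs' inequality, conditional form -/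
lemma gibbs (hw : IsP w) (X : Ω → α) (Y : Ω → β) (g : β → α → ℝ) (g0 : ∀ y x, 0 ≤ g y x)
    (g1 : ∀ y (s : Finset α), ∑ x ∈ s, g y x ≤ 1) (gp : ∀ ω, 0 < w ω → 0 < g (Y ω) (X ω)) :
    Hc w X Y ≤ ∑ ω, w ω * (-Real.log (g (Y ω) (X ω))) := by
  classical
  set P := fun ω => (X ω, Y ω) with hP
  have key : ∑ ω, w ω * (g (Y ω) (X ω) * pr w Y (Y ω) / pr w P (P ω)) ≤ 1 := by
    have h1 := sum_fiber w P (univ.image X ×ˢ univ.image Y)
      (fun ω => mem_product.2 ⟨mem_image_of_mem _ (mem_univ _), mem_image_of_mem _ (mem_univ _)⟩)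
      (fun q => g q.2 q.1 * pr w Y q.2 / pr w P q)
    refine h1.le.trans ?_
    calc _ ≤ ∑ q ∈ univ.image X ×ˢ univ.image Y, g q.2 q.1 * pr w Y q.2 := by
          refine sum_le_sum fun q _ => ?_
          rcases (pr_nonneg hw P q).eq_or_lt with h0 | h0
          · rw [← h0, zero_mul]; exact mul_nonneg (g0 _ _) (pr_nonneg hw _ _)
          · rw [mul_div_cancel₀ _ h0.ne']
      _ = ∑ y ∈ univ.image Y, (∑ x ∈ univ.image X, g y x) * pr w Y y := by
          rw [sum_product_right]; simp_rw [sum_mul]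
      _ ≤ ∑ y ∈ univ.image Y, pr w Y y :=
          sum_le_sum fun y _ => mul_le_of_le_one_left (pr_nonneg hw _ _) (g1 _ _)
      _ ≤ 1 := sum_pr_le hw _ _
  have h2 : ∑ ω, w ω * (g (Y ω) (X ω) * pr w Y (Y ω) / pr w P (P ω) - 1) ≤ 0 := by
    simp_rw [mul_sub, sum_sub_distrib, mul_one, hw.one]; linarith
  unfold Hc H
  rw [← sum_sub_distrib, ← sub_nonpos, ← sum_sub_distrib]
  refine le_trans (sum_le_sum fun ω _ => ?_) h2
  rcases (hw.nn ω).eq_or_lt with h0 | h0
  · rw [← h0]; simp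
  · have a1 := h0.trans_le (le_pr hw P ω)
    have a2 := h0.trans_le (le_pr hw Y ω)
    have a3 := gp ω h0
    have := Real.log_le_sub_one_of_pos (div_pos (mul_pos a3 a2) a1)
    rw [Real.log_div (mul_pos a3 a2).ne' a1.ne', Real.log_mul a3.ne' a2.ne'] at this
    rw [← mul_sub, ← mul_sub]
    exact mul_le_mul_of_nonneg_left (by linarith) h0.le

/-- Gibbs' inequality with a `Y`-measurable family of sub-probability vectors -/
lemma gibbs' (hw : IsP w) (X : Ω → α) (Y : Ω → β) (g : Ω → α → ℝ) (hg : Det Y g)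
    (g0 : ∀ y x, 0 ≤ g y x)
    (g1 : ∀ y (s : Finset α), ∑ x ∈ s, g y x ≤ 1) (gp : ∀ ω, 0 < w ω → 0 < g ω (X ω)) :
    Hc w X Y ≤ ∑ ω, w ω * (-Real.log (g ω (X ω))) := by
  classical
  let g' : β → α → ℝ := fun y => if h : ∃ ω, Y ω = y then g h.choose else 0
  have hg' : ∀ ω, g' (Y ω) = g ω := fun ω => by
    have h : ∃ ω', Y ω' = Y ω := ⟨ω, rfl⟩
    simp only [g', dif_pos h]; exact hg _ _ h.choose_spec
  have := gibbs hw X Y g' (fun y x => by
      simp only [g']; split_ifs; exacts [g0 _ _, le_rfl])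
    (fun y s => by simp only [g']; split_ifs; exacts [g1 _ _, by simp])
    (fun ω h => by rw [hg']; exact gp ω h)
  simpa only [hg'] using this

lemma Hc_nonneg (hw : IsP w) (X : Ω → α) (Y : Ω → β) : 0 ≤ Hc w X Y :=
  sub_nonneg.2 (H_mono hw fun _ _ h => congrArg Prod.snd h)

/-- monotonicity in the left variable -/
lemma Hc_mono_left (hw : IsP w) {X : Ω → α} {X' : Ω → γ} {Y : Ω → β}
    (h : Det (fun ω => (X' ω, Y ω)) X) : Hc w X Y ≤ Hc w X' Y := by
  have : H w (fun ω => (X ω, Y ω)) ≤ H w (fun ω => (X' ω, Y ω)) :=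
    H_mono hw fun ω ω' e => Prod.ext (h ω ω' e) (show Y ω = Y ω' from congrArg Prod.snd e)
  unfold Hc; linarith

/-- conditioning on more reduces entropy -/
lemma Hc_mono_right (hw : IsP w) (X : Ω → α) {Y : Ω → β} {Z : Ω → γ} (h : Det Z Y) :
    Hc w X Z ≤ Hc w X Y := by
  classical
  have := gibbs' hw X Z (fun ω x => pr w (fun ω => (X ω, Y ω)) (x, Y ω) / pr w Y (Y ω))
    (fun ω ω' e => by simp only [h ω ω' e])
    (fun _ _ => div_nonneg (pr_nonneg hw _ _) (pr_nonneg hw _ _))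
    (fun ω s => by
      rw [← sum_div]
      refine div_le_one_of_le₀ ?_ (pr_nonneg hw _ _)
      unfold pr
      rw [sum_comm]
      refine sum_le_sum fun ω' _ => ?_
      by_cases e : Y ω' = Y ω
      · simp only [Prod.mk.injEq, e, and_true, if_true, sum_ite_eq]
        split_ifs; exacts [le_rfl, hw.nn _]
      · simp [e])
    (fun ω h0 => div_pos (h0.trans_le (le_pr hw (fun ω => (X ω, Y ω)) ω))
      (h0.trans_le (le_pr hw Y ω)))
  refine this.trans (le_of_eq ?_)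
  unfold Hc H
  rw [← sum_sub_distrib]
  refine sum_congr rfl fun ω _ => ?_
  rcases (hw.nn ω).eq_or_lt with h0 | h0
  · rw [← h0]; simp
  · rw [Real.log_div (h0.trans_le (le_pr hw (fun ω => (X ω, Y ω)) ω)).ne'
      (h0.trans_le (le_pr hw Y ω)).ne']
    ring

lemma H_const (hw : IsP w) (c : α) : H w (fun _ => c) = 0 := by
  have : pr w (fun _ => c) c = 1 := by unfold pr; simp [hw.one]
  unfold H; simp [this]

lemma Hc_unit (hw : IsP w) (X : Ω → α) : Hc w X (fun _ => ()) = H w X := by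
  unfold Hc
  rw [H_const hw, sub_zero]
  exact H_congr hw (fun _ _ h => congrArg Prod.fst h) (fun _ _ h => by simp [h])

lemma Hc_le_H (hw : IsP w) (X : Ω → α) (Y : Ω → β) : Hc w X Y ≤ H w X := by
  rw [← Hc_unit hw X]
  exact Hc_mono_right hw X (Y := fun _ => ()) (Z := Y) fun _ _ _ => rfl

lemma H_sub_le_Hc (hw : IsP w) (X : Ω → α) (Y : Ω → β) : H w X - H w Y ≤ Hc w X Y := by
  have : H w X ≤ H w (fun ω => (X ω, Y ω)) := H_mono hw fun _ _ h => congrArg Prod.fst h
  unfold Hc; linarith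

lemma H_pair_le (hw : IsP w) (X : Ω → α) (Y : Ω → β) :
    H w (fun ω => (X ω, Y ω)) ≤ H w X + H w Y := by
  have := Hc_le_H hw X Y
  unfold Hc at this; linarith

/-- chain rule -/
lemma Hc_chain (hw : IsP w) (X : Ω → α) (X' : Ω → γ) (Y : Ω → β) :
    Hc w (fun ω => (X ω, X' ω)) Y = Hc w X Y + Hc w X' (fun ω => (X ω, Y ω)) := by
  unfold Hc
  have : H w (fun ω => ((X ω, X' ω), Y ω)) = H w (fun ω => (X' ω, (X ω, Y ω))) :=
    H_congr hw (fun _ _ h => by simp only [Prod.mk.injEq] at h ⊢; tauto)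
      (fun _ _ h => by simp only [Prod.mk.injEq] at h ⊢; tauto)
  rw [this]; ring

lemma Hc_pair_le (hw : IsP w) (X : Ω → α) (X' : Ω → γ) (Y : Ω → β) :
    Hc w (fun ω => (X ω, X' ω)) Y ≤ Hc w X Y + Hc w X' Y := by
  rw [Hc_chain hw]
  have := Hc_mono_right hw X' (Y := Y) (Z := fun ω => (X ω, Y ω)) fun _ _ h => congrArg Prod.snd h
  linarith

lemma Hc_eq_zero (hw : IsP w) {X : Ω → α} {Y : Ω → β} (h : Det Y X) : Hc w X Y ≤ 0 := by
  unfold Hc
  rw [sub_nonpos]
  exact H_mono hw fun ω ω' e => Prod.ext (h ω ω' e) e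

/-- subadditivity over a finite family -/
lemma Hc_le_sum (hw : IsP w) {ι : Type*} (s : Finset ι) (X : ι → Ω → α) (Y : Ω → β)
    (Z : Ω → γ) (h : ∀ ω ω', (∀ i ∈ s, X i ω = X i ω') → Z ω = Z ω') :
    Hc w Z Y ≤ ∑ i ∈ s, Hc w (X i) Y := by
  classical
  have key : ∀ s : Finset ι, Hc w (fun ω => fun i : s => X i ω) Y ≤ ∑ i ∈ s, Hc w (X i) Y := by
    intro s
    induction s using Finset.induction_on with
    | empty => simpa using Hc_eq_zero hw (fun _ _ _ => Subsingleton.elim _ _)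
    | insert a s ha ih =>
      rw [sum_insert ha]
      refine le_trans ?_ ((Hc_pair_le hw (X a) (fun ω => fun i : s => X i ω) Y).trans
        (add_le_add le_rfl ih))
      refine Hc_mono_left hw fun ω ω' e => ?_
      simp only [Prod.mk.injEq] at e
      funext i
      rcases mem_insert.1 i.2 with h1 | h1
      · rw [h1]; exact e.1.1
      · exact congrFun e.1.2 ⟨i, h1⟩
  refine le_trans (Hc_mono_left hw fun ω ω' e => h ω ω' fun i hi => ?_) (key s)
  exact congrFun (congrArg Prod.fst e) ⟨i, hi⟩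

lemma H_le_sum (hw : IsP w) {ι : Type*} (s : Finset ι) (X : ι → Ω → α)
    (Z : Ω → γ) (h : ∀ ω ω', (∀ i ∈ s, X i ω = X i ω') → Z ω = Z ω') :
    H w Z ≤ ∑ i ∈ s, H w (X i) := by
  have := Hc_le_sum hw s X (fun _ => ()) Z h
  simpa only [Hc_unit hw] using this

lemma Hc_le_log_card (hw : IsP w) (X : Ω → α) (Y : Ω → β) (V : Ω → Finset α) (hV : Det Y V)
    (hX : ∀ ω, X ω ∈ V ω) : Hc w X Y ≤ ∑ ω, w ω * Real.log (V ω).card := by
  classical
  have := gibbs' hw X Y (fun ω x => if x ∈ V ω then ((V ω).card : ℝ)⁻¹ else 0)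
    (fun ω ω' e => by simp only [hV ω ω' e])
    (fun _ _ => by split_ifs <;> positivity)
    (fun ω s => by
      rw [← sum_filter, sum_const, nsmul_eq_mul, ← div_eq_mul_inv]
      refine div_le_one_of_le₀ ?_ (by positivity)
      exact_mod_cast card_le_card fun x hx => (mem_filter.1 hx).2)
    (fun ω _ => by
      rw [if_pos (hX ω)]
      have : 0 < (V ω).card := card_pos.2 ⟨_, hX ω⟩
      positivity)
  simpa only [hX, if_true, Real.log_inv, neg_neg] using this

lemma H_le_log_card (hw : IsP w) (X : Ω → α) (V : Finset α) (hX : ∀ ω, X ω ∈ V) :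
    H w X ≤ Real.log V.card := by
  have := Hc_le_log_card hw X (fun _ => ()) (fun _ => V) (fun _ _ _ => rfl) hX
  rwa [Hc_unit hw, ← sum_mul, hw.one, one_mul] at this

/-- measure preserving maps -/
def Push {Ω' : Type*} [Fintype Ω'] (w : Ω → ℝ) (w' : Ω' → ℝ) (φ : Ω → Ω') : Prop :=
  ∀ g : Ω' → ℝ, ∑ ω, w ω * g (φ ω) = ∑ ω', w' ω' * g ω'

section push
variable {Ω' : Type*} [Fintype Ω'] {w' : Ω' → ℝ} {φ : Ω → Ω'}

lemma Push.pr_eq (h : Push w w' φ) (X : Ω' → α) (v : α) :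
    pr w (fun ω => X (φ ω)) v = pr w' X v := by
  classical
  have := h fun ω' => if X ω' = v then 1 else 0
  unfold pr
  simp only [mul_ite, mul_one, mul_zero] at this
  convert this

lemma Push.H_eq (h : Push w w' φ) (X : Ω' → α) : H w (fun ω => X (φ ω)) = H w' X := by
  unfold H
  simp only [h.pr_eq]
  exact h fun ω' => -Real.log (pr w' X (X ω'))

lemma Push.Hc_eq (h : Push w w' φ) (X : Ω' → α) (Y : Ω' → β) :
    Hc w (fun ω => X (φ ω)) (fun ω => Y (φ ω)) = Hc w' X Y := by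
  unfold Hc
  rw [h.H_eq Y, ← h.H_eq fun ω' => (X ω', Y ω')]

lemma push_equiv (e : Ω ≃ Ω') (he : ∀ ω, w ω = w' (e ω)) : Push w w' e := fun g => by
  rw [← e.sum_comp]; simp only [he]

end push

section ext
variable {A : Type*} [Fintype A]

/-- extension of a space by a kernel -/
def ext (w : Ω → ℝ) (k : Ω → A → ℝ) : Ω × A → ℝ := fun q => w q.1 * k q.1 q.2

variable {k : Ω → A → ℝ}

lemma sum_ext (w : Ω → ℝ) (k : Ω → A → ℝ) (g : Ω × A → ℝ) :
    ∑ q, ext w k q * g q = ∑ ω, w ω * ∑ a, k ω a * g (ω, a) := by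
  rw [Fintype.sum_prod_type]
  simp only [ext, mul_sum, mul_assoc]

lemma push_fst (hk : ∀ ω, IsP (k ω)) : Push (ext w k) w Prod.fst := fun g => by
  rw [sum_ext w k fun q => g q.1]
  refine sum_congr rfl fun ω _ => ?_
  simp only
  rw [← sum_mul, (hk ω).one, one_mul]

lemma IsP.ext (hw : IsP w) (hk : ∀ ω, IsP (k ω)) : IsP (ext w k) where
  nn q := mul_nonneg (hw.nn _) ((hk _).nn _)
  one := by
    have := push_fst (w := w) hk fun _ => 1
    simpa [hw.one] using this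

/-- entropy lower bound from a bound on the conditional point masses -/
lemma H_ext_lower (hw : IsP w) (hk : ∀ ω, IsP (k ω)) (f : Ω × A → α) (b : Ω → ℝ)
    (hb : ∀ ω a, pr (k ω) (fun a => f (ω, a)) (f (ω, a)) ≤ b ω) :
    ∑ ω, w ω * (-Real.log (b ω)) ≤ H (ext w k) f := by
  classical
  have hP := hw.ext hk
  refine le_trans ?_ (Hc_le_H hP f Prod.fst)
  rw [← push_fst (w := w) hk fun ω => -Real.log (b ω)]
  unfold Hc H
  rw [← sum_sub_distrib]
  refine sum_le_sum fun q _ => ?_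
  rcases (hP.nn q).eq_or_lt with h0 | h0
  · rw [← h0]; simp
  have e1 : pr (ext w k) Prod.fst q.1 = w q.1 := by
    have := (push_fst (w := w) hk).pr_eq (fun ω => ω) q.1
    rw [this]; unfold pr; simp
  have e2 : pr (ext w k) (fun q => (f q, q.1)) (f q, q.1) =
      w q.1 * pr (k q.1) (fun a => f (q.1, a)) (f q) := by
    unfold pr
    rw [Fintype.sum_prod_type, sum_eq_single q.1]
    · rw [mul_sum]
      refine sum_congr rfl fun a _ => ?_
      simp only [Prod.mk.injEq, and_true, ext]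
      split_ifs <;> simp
    · intro ω _ hω; simp [hω]
    · simp
  have h1 : 0 < w q.1 := lt_of_le_of_ne (hw.nn _) fun h => by simp [ext, ← h] at h0
  have h2 : 0 < k q.1 q.2 := lt_of_le_of_ne ((hk _).nn _) fun h => by simp [ext, ← h] at h0
  have h3 : 0 < pr (k q.1) (fun a => f (q.1, a)) (f q) :=
    h2.trans_le (le_pr (hk q.1) (fun a => f (q.1, a)) q.2)
  rw [e1, e2, Real.log_mul h1.ne' h3.ne', ← mul_sub]
  refine mul_le_mul_of_nonneg_left ?_ h0.le
  have := Real.log_le_log h3 (hb q.1 q.2)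
  linarith

end ext

end Crest.Agent.Lib.FinEnt
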