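import Mathlib

/-!
Primitive recursive arithmetic on `ℤ` and `ℚ`, for Mathlib's `Primcodable` instances
(`Primcodable.ofDenumerable`).
-/

set_option autoImplicit false

namespace Crest.Agent.Lib.PrimrecRat

open Primrec Encodable

/-! ### naturals -/

theorem nat_dvd : PrimrecRel (fun a b : ℕ => a ∣ b) :=
  (Primrec.eq.comp (nat_mod.comp snd fst) (const 0)).of_eq fun p => by
    simp [Nat.dvd_iff_mod_eq_zero]

theorem nat_gcd : Primrec₂ Nat.gcd := by
  have h : PrimrecRel (fun (p : ℕ × ℕ) (d : ℕ) => d ∣ p.1 ∧ d ∣ p.2) :=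
    PrimrecPred.and (nat_dvd.comp snd (fst.comp fst)) (nat_dvd.comp snd (snd.comp fst))
  refine (nat_findGreatest (nat_add.comp fst snd) h).of_eq fun p => ?_
  obtain ⟨a, b⟩ := p
  dsimp only
  rw [Nat.findGreatest_eq_iff]
  refine ⟨?_, fun _ => ⟨Nat.gcd_dvd_left _ _, Nat.gcd_dvd_right _ _⟩, ?_⟩
  · rcases Nat.eq_zero_or_pos a with rfl | ha
    · simp
    · exact (Nat.gcd_le_left _ ha).trans (Nat.le_add_right _ _)
  · rintro n hn hn2 ⟨h1, h2⟩
    have h3 := Nat.dvd_gcd h1 h2
    rcases Nat.eq_zero_or_pos (Nat.gcd a b) with h0 | h0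
    · rw [Nat.gcd_eq_zero_iff] at h0
      omega
    · exact absurd (Nat.le_of_dvd h0 h3) (not_le.2 hn)

theorem nat_pow : Primrec₂ (fun a b : ℕ => a ^ b) := Primrec₂.unpaired'.1 Nat.Primrec.pow

theorem nat_factorial : Primrec Nat.factorial :=
  (Primrec.nat_rec' (f := fun n : ℕ => n) (g := fun _ => 1)
    (h := fun _ (p : ℕ × ℕ) => (p.1 + 1) * p.2) Primrec.id (const 1)
    (nat_mul.comp (succ.comp (fst.comp snd)) (snd.comp snd)).to₂).of_eq fun n => by
      induction n with
      | zero => rfl
      | succ n ih => simp only [Nat.factorial_succ, ← ih]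

/-! ### integers -/

theorem int_natCast : Primrec (fun n : ℕ => (n : ℤ)) :=
  encode_iff.1 (nat_double.of_eq fun _ => rfl)

theorem int_negSucc : Primrec Int.negSucc :=
  encode_iff.1 (nat_double_succ.of_eq fun _ => rfl)

theorem int_toNat : Primrec Int.toNat := by
  refine (Primrec.cond (nat_bodd.comp Primrec.encode) (const 0)
    (nat_div2.comp Primrec.encode)).of_eq fun z => ?_
  cases z with
  | ofNat n =>
    have : encode (Int.ofNat n) = 2 * n := rfl
    change (bif (encode (Int.ofNat n)).bodd then 0 else (encode (Int.ofNat n)).div2) = n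
    rw [this]; simp [Nat.div2_val]
  | negSucc n =>
    have : encode (Int.negSucc n) = 2 * n + 1 := rfl
    change (bif (encode (Int.negSucc n)).bodd then 0 else (encode (Int.negSucc n)).div2) = 0
    rw [this]; simp

theorem int_negToNat : Primrec (fun z : ℤ => (-z).toNat) := by
  refine (Primrec.cond (nat_bodd.comp Primrec.encode) (succ.comp (nat_div2.comp Primrec.encode))
    (const 0)).of_eq fun z => ?_
  cases z with
  | ofNat n =>
    have : encode (Int.ofNat n) = 2 * n := rfl
    change (bif (encode (Int.ofNat n)).bodd then (encode (Int.ofNat n)).div2 + 1 else 0) = _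
    rw [this]; simp
  | negSucc n =>
    have : encode (Int.negSucc n) = 2 * n + 1 := rfl
    change (bif (encode (Int.negSucc n)).bodd then (encode (Int.negSucc n)).div2 + 1 else 0) = _
    rw [this]
    have h2 : (2 * n + 1).div2 = n := by rw [Nat.div2_val]; omega
    simp [h2]

theorem int_subNat : Primrec₂ (fun a b : ℕ => (a : ℤ) - b) := by
  refine (Primrec.ite (nat_le.comp snd fst) (int_natCast.comp (nat_sub.comp fst snd))
    (int_negSucc.comp (nat_sub.comp (nat_sub.comp snd fst) (const 1)))).of_eq fun p => ?_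
  obtain ⟨a, b⟩ := p
  dsimp only
  split_ifs with h
  · omega
  · rw [Int.negSucc_eq]; omega

theorem int_add : Primrec₂ (fun a b : ℤ => a + b) :=
  (int_subNat.comp (nat_add.comp (int_toNat.comp fst) (int_toNat.comp snd))
    (nat_add.comp (int_negToNat.comp fst) (int_negToNat.comp snd))).of_eq fun p => by
      push_cast; omega

theorem int_neg : Primrec (fun a : ℤ => -a) :=
  (int_subNat.comp int_negToNat int_toNat).of_eq fun a => by omega

theorem int_sub : Primrec₂ (fun a b : ℤ => a - b) :=
  (int_add.comp fst (int_neg.comp snd)).of_eq fun p => by simp [sub_eq_add_neg]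

theorem int_mul : Primrec₂ (fun a b : ℤ => a * b) :=
  (int_subNat.comp
    (nat_add.comp (nat_mul.comp (int_toNat.comp fst) (int_toNat.comp snd))
      (nat_mul.comp (int_negToNat.comp fst) (int_negToNat.comp snd)))
    (nat_add.comp (nat_mul.comp (int_toNat.comp fst) (int_negToNat.comp snd))
      (nat_mul.comp (int_negToNat.comp fst) (int_toNat.comp snd)))).of_eq fun p => by
      obtain ⟨a, b⟩ := p
      have ha : (a.toNat : ℤ) - (-a).toNat = a := by omega
      have hb : (b.toNat : ℤ) - (-b).toNat = b := by omega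
      push_cast
      linear_combination ((b.toNat : ℤ) - (-b).toNat) * ha + a * hb

theorem int_le : PrimrecRel (fun a b : ℤ => a ≤ b) :=
  (nat_le.comp (nat_add.comp (int_toNat.comp fst) (int_negToNat.comp snd))
    (nat_add.comp (int_toNat.comp snd) (int_negToNat.comp fst))).of_eq fun p => by omega

theorem int_lt : PrimrecRel (fun a b : ℤ => a < b) :=
  (PrimrecPred.not (int_le.comp snd fst)).of_eq fun p => by simp

theorem int_natAbs : Primrec Int.natAbs :=
  (nat_add.comp int_toNat int_negToNat).of_eq fun a => by omega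

theorem int_ediv_nat : Primrec₂ (fun (a : ℤ) (b : ℕ) => a / (b : ℤ)) := by
  refine (Primrec.ite (int_le.comp (const 0) fst)
    (int_natCast.comp (nat_div.comp (int_toNat.comp fst) snd))
    (Primrec.ite (Primrec.eq.comp snd (const 0)) (const 0)
      (int_negSucc.comp (nat_div.comp (nat_sub.comp (int_negToNat.comp fst) (const 1)) snd)))).of_eq
    fun p => ?_
  obtain ⟨a, b⟩ := p
  dsimp only
  cases a with
  | ofNat n => simp
  | negSucc n =>
    rw [if_neg (by simp)]
    split_ifs with h
    · simp [h]
    · rw [Int.negSucc_ediv _ (by omega)]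
      have : (-Int.negSucc n).toNat - 1 = n := by simp
      rw [this, Int.negSucc_eq]
      rfl

/-! ### rationals -/

/-- the `Encodable` code of a rational -/
def code (q : ℚ) : ℕ := Nat.pair (encode q.num) q.den

/-- codes of rationals -/
def InS (m : ℕ) : Prop :=
  0 < m.unpair.2 ∧ Nat.gcd (Denumerable.ofNat ℤ m.unpair.1).natAbs m.unpair.2 = 1

instance : DecidablePred InS := fun m => by unfold InS; infer_instance

theorem inS_primrec : PrimrecPred InS :=
  PrimrecPred.and (nat_lt.comp (const 0) (snd.comp unpair))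
    (Primrec.eq.comp (nat_gcd.comp (int_natAbs.comp ((Primrec.ofNat ℤ).comp (fst.comp unpair)))
      (snd.comp unpair)) (const 1))

theorem ofNat_encode_int (z : ℤ) : Denumerable.ofNat ℤ (encode z) = z :=
  Denumerable.ofNat_encode z

theorem inS_code (q : ℚ) : InS (code q) := by
  unfold InS code
  rw [Nat.unpair_pair]
  dsimp only
  rw [ofNat_encode_int]
  exact ⟨q.den_pos, q.reduced⟩

theorem inS_iff (m : ℕ) : InS m ↔ m ∈ Set.range (@encode ℚ Rat.instEncodable) := by
  constructor
  · rintro ⟨h1, h2⟩
    refine ⟨⟨Denumerable.ofNat ℤ m.unpair.1, m.unpair.2, h1.ne', h2⟩, ?_⟩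
    change Nat.pair (encode (Denumerable.ofNat ℤ m.unpair.1)) m.unpair.2 = m
    have : encode (Denumerable.ofNat ℤ m.unpair.1) = m.unpair.1 := Denumerable.encode_ofNat _
    rw [this, Nat.pair_unpair]
  · rintro ⟨q, rfl⟩
    exact inS_code q

/-- number of codes below `m` -/
def cnt (m : ℕ) : ℕ := ((List.range m).filter (fun x => InS x)).length

theorem cnt_primrec : Primrec cnt :=
  list_length.comp ((Primrec.listFilter inS_primrec).comp list_range)

theorem cnt_eq_count (m : ℕ) : cnt m = Nat.count InS m := by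
  rw [cnt, Nat.count, List.countP_eq_length_filter]

theorem encode_rat (q : ℚ) : @encode ℚ Primcodable.toEncodable q = cnt (code q) := by
  have : @encode ℚ Primcodable.toEncodable q =
      (List.range (code q)).countP (fun m => @decide (m ∈ Set.range (@encode ℚ Rat.instEncodable))
        (@Encodable.decidableRangeEncode ℚ Rat.instEncodable m)) := rfl
  rw [this, cnt, List.countP_eq_length_filter]
  congr 2
  funext m
  simp [inS_iff]

theorem inS_pair_one (n : ℕ) : InS (Nat.pair n 1) := by
  unfold InS
  rw [Nat.unpair_pair]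
  simp

theorem le_cnt (n : ℕ) : n ≤ cnt (Nat.pair n 1) := by
  induction n with
  | zero => exact Nat.zero_le _
  | succ n ih =>
    rw [cnt_eq_count] at ih ⊢
    have h1 : Nat.pair n 1 < Nat.pair (n + 1) 1 := Nat.pair_lt_pair_left 1 (Nat.lt_succ_self n)
    have h2 := Nat.count_strict_mono (inS_pair_one n) h1
    omega

theorem code_primrec : Primrec code := by
  apply of_graph
  · refine ⟨fun q => Nat.pair (@encode ℚ Primcodable.toEncodable q) 1,
      Primrec₂.natPair.comp Primrec.encode (const 1), fun q => ?_⟩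
    change code q ≤ _
    by_contra hlt
    push Not at hlt
    have h1 := le_cnt (@encode ℚ Primcodable.toEncodable q)
    have h2 := Nat.count_strict_mono (inS_pair_one _) hlt
    rw [← cnt_eq_count, ← cnt_eq_count, ← encode_rat] at h2
    omega
  · have h : PrimrecRel (fun (q : ℚ) (m : ℕ) =>
        InS m ∧ cnt m = @encode ℚ Primcodable.toEncodable q) :=
      PrimrecPred.and (inS_primrec.comp snd)
        (Primrec.eq.comp (cnt_primrec.comp snd) (Primrec.encode.comp fst))
    refine h.of_eq fun q m => ?_
    constructor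
    · rintro ⟨h1, h2⟩
      rw [encode_rat, cnt_eq_count, cnt_eq_count] at h2
      exact (Nat.count_injective h1 (inS_code q) h2).symm
    · rintro rfl
      exact ⟨inS_code q, (encode_rat q).symm⟩

theorem rat_num : Primrec Rat.num :=
  ((Primrec.ofNat ℤ).comp (fst.comp (unpair.comp code_primrec))).of_eq fun q => by
    simp only [code, Nat.unpair_pair]
    exact ofNat_encode_int _

theorem rat_den : Primrec Rat.den :=
  (snd.comp (unpair.comp code_primrec)).of_eq fun q => by
    simp only [code, Nat.unpair_pair]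

theorem encode_int_primrec : Primrec (fun z : ℤ => @encode ℤ Int.encodable z) :=
  (Primrec.encode (α := ℤ)).of_eq fun _ => rfl

theorem rat_mkRat : Primrec₂ mkRat := by
  have hg : Primrec (fun p : ℤ × ℕ => Nat.gcd p.2 p.1.natAbs) :=
    nat_gcd.comp snd (int_natAbs.comp fst)
  have hn : Primrec (fun p : ℤ × ℕ => (mkRat p.1 p.2).num) :=
    (Primrec.ite (Primrec.eq.comp snd (const 0)) (const 0) (int_ediv_nat.comp fst hg)).of_eq
      fun p => by rw [Rat.num_mkRat]
  have hd : Primrec (fun p : ℤ × ℕ => (mkRat p.1 p.2).den) :=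
    (Primrec.ite (Primrec.eq.comp snd (const 0)) (const 1) (nat_div.comp snd hg)).of_eq
      fun p => by rw [Rat.den_mkRat]
  refine encode_iff.1 ((cnt_primrec.comp
    (Primrec₂.natPair.comp (encode_int_primrec.comp hn) hd)).of_eq fun p => ?_)
  rw [encode_rat]
  rfl

theorem rat_intCast : Primrec (fun z : ℤ => (z : ℚ)) :=
  (rat_mkRat.comp Primrec.id (const 1)).of_eq fun z => by simp [Rat.mkRat_eq_div]

theorem rat_natCast : Primrec (fun n : ℕ => (n : ℚ)) :=
  (rat_intCast.comp int_natCast).of_eq fun n => by simp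

theorem rat_add : Primrec₂ (fun a b : ℚ => a + b) :=
  (rat_mkRat.comp
    (int_add.comp (int_mul.comp (rat_num.comp fst) (int_natCast.comp (rat_den.comp snd)))
      (int_mul.comp (rat_num.comp snd) (int_natCast.comp (rat_den.comp fst))))
    (nat_mul.comp (rat_den.comp fst) (rat_den.comp snd))).of_eq fun p => (Rat.add_def' _ _).symm

theorem rat_mul : Primrec₂ (fun a b : ℚ => a * b) :=
  (rat_mkRat.comp (int_mul.comp (rat_num.comp fst) (rat_num.comp snd))
    (nat_mul.comp (rat_den.comp fst) (rat_den.comp snd))).of_eq fun p => (Rat.mul_def' _ _).symm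

theorem rat_neg : Primrec (fun a : ℚ => -a) :=
  (rat_mul.comp (const (-1)) Primrec.id).of_eq fun a => by simp

theorem rat_sub : Primrec₂ (fun a b : ℚ => a - b) :=
  (rat_add.comp fst (rat_neg.comp snd)).of_eq fun p => by simp [sub_eq_add_neg]

theorem rat_le : PrimrecRel (fun a b : ℚ => a ≤ b) :=
  (int_le.comp (int_mul.comp (rat_num.comp fst) (int_natCast.comp (rat_den.comp snd)))
      (int_mul.comp (rat_num.comp snd) (int_natCast.comp (rat_den.comp fst)))).of_eq
    fun p => (Rat.le_iff _ _).symm

theorem rat_lt : PrimrecRel (fun a b : ℚ => a < b) :=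
  (PrimrecPred.not (rat_le.comp snd fst)).of_eq fun p => by simp

theorem rat_inv : Primrec (fun a : ℚ => a⁻¹) := by
  refine (Primrec.ite (int_le.comp (const 0) rat_num)
    (rat_mkRat.comp (int_natCast.comp rat_den) (int_natAbs.comp rat_num))
    (rat_mkRat.comp (int_neg.comp (int_natCast.comp rat_den)) (int_natAbs.comp rat_num))).of_eq
    fun a => ?_
  have h : a⁻¹ = (a.den : ℚ) / (a.num : ℚ) := by
    conv_lhs => rw [← Rat.num_div_den a]
    rw [inv_div]
  rw [h]
  split_ifs with h1
  · rw [Rat.mkRat_eq_div, Nat.cast_natAbs, abs_of_nonneg h1]; simp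
  · rw [Rat.mkRat_eq_div, Nat.cast_natAbs, abs_of_neg (not_le.1 h1)]; simp [neg_div_neg_eq]

theorem rat_div : Primrec₂ (fun a b : ℚ => a / b) :=
  (rat_mul.comp fst (rat_inv.comp snd)).of_eq fun p => by simp [div_eq_mul_inv]

theorem rat_pow : Primrec₂ (fun (a : ℚ) (n : ℕ) => a ^ n) :=
  (Primrec.nat_rec' (f := fun p : ℚ × ℕ => p.2) (g := fun _ => (1 : ℚ))
    (h := fun (p : ℚ × ℕ) (r : ℕ × ℚ) => r.2 * p.1) snd (const 1)
    (rat_mul.comp (snd.comp snd) (fst.comp fst)).to₂).of_eq fun p => by
      obtain ⟨a, n⟩ := p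
      induction n with
      | zero => simp
      | succ n ih => simp only [pow_succ] at ih ⊢; rw [← ih]

theorem rat_abs : Primrec (fun a : ℚ => |a|) :=
  (Primrec.ite (rat_le.comp (const 0) Primrec.id) Primrec.id rat_neg).of_eq fun a => by
    dsimp only [id]
    split_ifs with h
    · exact (abs_of_nonneg h).symm
    · exact (abs_of_neg (not_le.1 h)).symm

theorem rat_max : Primrec₂ (fun a b : ℚ => max a b) :=
  (Primrec.ite (rat_le.comp fst snd) snd fst).of_eq fun p => (max_def _ _).symm

theorem rat_min : Primrec₂ (fun a b : ℚ => min a b) :=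
  (Primrec.ite (rat_le.comp fst snd) fst snd).of_eq fun p => (min_def _ _).symm

theorem rat_floor : Primrec (fun a : ℚ => ⌊a⌋) :=
  (int_ediv_nat.comp rat_num rat_den).of_eq fun a => (Rat.floor_def' (q := a)).symm

theorem rat_list_sum : Primrec (fun l : List ℚ => l.sum) :=
  (list_foldr (h := fun (_ : List ℚ) (p : ℚ × ℚ) => p.1 + p.2) Primrec.id (const 0)
    (rat_add.comp (fst.comp snd) (snd.comp snd)).to₂).of_eq fun l => by
      dsimp only [id]
      induction l with
      | nil => rfl
      | cons a l ih => simp [List.foldr_cons, ih]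

theorem rat_list_prod : Primrec (fun l : List ℚ => l.prod) :=
  (list_foldr (h := fun (_ : List ℚ) (p : ℚ × ℚ) => p.1 * p.2) Primrec.id (const 1)
    (rat_mul.comp (fst.comp snd) (snd.comp snd)).to₂).of_eq fun l => by
      dsimp only [id]
      induction l with
      | nil => rfl
      | cons a l ih => simp [List.foldr_cons, ih]

theorem nat_list_sum : Primrec (fun l : List ℕ => l.sum) :=
  (list_foldr (h := fun (_ : List ℕ) (p : ℕ × ℕ) => p.1 + p.2) Primrec.id (const 0)
    (nat_add.comp (fst.comp snd) (snd.comp snd)).to₂).of_eq fun l => by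
      dsimp only [id]
      induction l with
      | nil => rfl
      | cons a l ih => simp [List.foldr_cons, ih]

theorem nat_list_prod : Primrec (fun l : List ℕ => l.prod) :=
  (list_foldr (h := fun (_ : List ℕ) (p : ℕ × ℕ) => p.1 * p.2) Primrec.id (const 1)
    (nat_mul.comp (fst.comp snd) (snd.comp snd)).to₂).of_eq fun l => by
      dsimp only [id]
      induction l with
      | nil => rfl
      | cons a l ih => simp [List.foldr_cons, ih]

end Crest.Agent.Lib.PrimrecRat
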